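import Crest.Agent.R108.Weak

/-! A concentration lemma for transitive systems of filters in a separable reflexive space. -/

set_option autoImplicit false

namespace Crest.Agent.R108

open Filter Topology Set Metric

variable {E : Type*} [NormedAddCommGroup E] [NormedSpace ℝ E] {N : Type*}

/-- nodes with a remaining mass, a position, and filters of descendants -/
structure Sys (N : Type*) (E : Type*) [NormedAddCommGroup E] where
  m : N → ℝ
  Z : N → E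
  F : N → ℝ → Filter N
  neBot : ∀ ν t, 0 < t → t < m ν → (F ν t).NeBot
  step : ∀ ν t, 0 < t → t < m ν → ∀ᶠ ν' in F ν t, m ν' = t ∧ ‖Z ν' - Z ν‖ ≤ m ν - t
  trans : ∀ ν t t', 0 < t' → t' < t → t < m ν → (F ν t).bind (fun ν' => F ν' t') ≤ F ν t'

namespace Sys

variable (S : Sys N E)

/-- the drift rate along `T` belongs to `C` -/
def Drift (C : Set E) (ν : N) (t : ℝ) (T : Ultrafilter N) : Prop :=
  (T : Filter N) ≤ S.F ν t ∧ ∃ c ∈ C, WLim (T : Filter N) S.Z (S.Z ν + (S.m ν - t) • c)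

def Q (C : Set E) : Prop := ∀ ν t, 0 < t → t < S.m ν → ∃ T, S.Drift C ν t T

lemma bind_le {ι : Type*} {U : Filter ι} {T : ι → Filter N} {G : Filter N}
    (h : ∀ᶠ i in U, T i ≤ G) : U.bind T ≤ G := fun s hs => by
  rw [mem_bind']
  filter_upwards [h] with i hi using hi hs

lemma wlim_affine {ι : Type*} {U : Filter ι} {c : ι → E} {c₀ : E} (h : WLim U c c₀) (z : E)
    (a : ℝ) : WLim U (fun i => z + a • c i) (z + a • c₀) := fun ψ => by
  simpa using ((h ψ).const_mul a).const_add (ψ z)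

lemma drift_limit (hE : Refl E) {ι : Type*} (U : Ultrafilter ι) {C : ι → Set E} {ν : N} {t : ℝ}
    {T : ι → Ultrafilter N} (h : ∀ i, S.Drift (C i) ν t (T i))
    (hC : ∀ i, C i ⊆ closedBall 0 1) :
    ((U.bind T : Ultrafilter N) : Filter N) ≤ S.F ν t ∧ ∃ (c : ι → E) (c₀ : E), (∀ i, c i ∈ C i) ∧
      WLim (U : Filter ι) c c₀ ∧
      WLim ((U.bind T : Ultrafilter N) : Filter N) S.Z (S.Z ν + (S.m ν - t) • c₀) := by
  choose c hc1 hc2 using fun i => (h i).2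
  obtain ⟨c₀, hc₀⟩ := exists_wlim hE U c 1
    (Eventually.of_forall fun i => by simpa using hC i (hc1 i))
  exact ⟨bind_le (Eventually.of_forall fun i => (h i).1), c, c₀, hc1, hc₀,
    WLim.bind (Eventually.of_forall hc2) (wlim_affine hc₀ _ _)⟩

lemma exists_C0 (hE : Refl E) : ∃ C₀, Minimal
    (· ∈ {C : Set E | IsClosed C ∧ Convex ℝ C ∧ C ⊆ closedBall 0 1 ∧ S.Q C}) C₀ := by
  refine (zorn_superset_nonempty
    {C : Set E | IsClosed C ∧ Convex ℝ C ∧ C ⊆ closedBall 0 1 ∧ S.Q C}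
    (fun c hc hchain hne => ?_) (closedBall 0 1)
    ⟨isClosed_closedBall, convex_closedBall _ _, subset_rfl, fun ν t h0 ht => ?_⟩).imp
    fun _ h => h.2
  · refine ⟨⋂₀ c, ⟨isClosed_sInter fun s hs => (hc hs).1, convex_sInter fun s hs => (hc hs).2.1,
      (sInter_subset_of_mem hne.some_mem).trans (hc hne.some_mem).2.2.1, fun ν t h0 ht => ?_⟩,
      fun s hs => sInter_subset_of_mem hs⟩
    obtain ⟨U, hU⟩ := exists_chain_down c hchain hne
    choose T hT using fun s : c => (hc s.2).2.2.2 ν t h0 ht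
    obtain ⟨h1, d, d₀, h2, h3, h4⟩ := S.drift_limit hE U hT fun s => (hc s.2).2.2.1
    exact ⟨U.bind T, h1, d₀, fun s hs => h3.mem (hc hs).2.1 (hc hs).1
      ((hU s hs).mono fun i hi => hi (h2 i)), h4⟩
  · have := S.neBot ν t h0 ht
    have ha : 0 < S.m ν - t := by linarith
    have hle := Ultrafilter.of_le (S.F ν t)
    have hst := hle (S.step ν t h0 ht)
    obtain ⟨z, hz⟩ := exists_wlim hE (Ultrafilter.of (S.F ν t)) S.Z (‖S.Z ν‖ + (S.m ν - t)) (by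
      filter_upwards [hst] with ν' h
      linarith [h.2, norm_le_norm_add_norm_sub' (S.Z ν') (S.Z ν)])
    refine ⟨_, hle, (S.m ν - t)⁻¹ • (z - S.Z ν), ?_, ?_⟩
    · rw [mem_closedBall_zero_iff, norm_smul, norm_inv, Real.norm_of_nonneg ha.le,
        inv_mul_le_iff₀ ha, mul_one]
      exact hz.norm_sub_le _ (by filter_upwards [hst] with ν' h using h.2)
    · rwa [smul_inv_smul₀ ha.ne', add_sub_cancel]

/-- a block whose increments are, for functionals with root in `O`, close to `C` -/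
def Good (C : Set E) (O : Set (WeakDual ℝ E)) (r : ℝ) (pen : WeakDual ℝ E → ℝ) (ν : N) (t : ℝ)
    (T : Ultrafilter N) : Prop :=
  S.Drift C ν t T ∧ ∀ (ψ : N → WeakDual ℝ E) (ψ₀ : WeakDual ℝ E), (∀ ν', ψ ν' ∈ DB E) →
    Tendsto ψ T (𝓝 ψ₀) → ψ₀ ∈ O → ∀ᶠ ν' in (T : Filter N), ∃ c ∈ C,
      ψ ν' (S.Z ν' - S.Z ν - (S.m ν - t) • c) < (S.m ν - t) * r + pen ψ₀

def P (C : Set E) (ε : ℝ) (O : Set (WeakDual ℝ E)) : Prop :=
  ∀ r, ε < r → ∀ ν t, 0 < t → t < S.m ν → ∃ T, S.Good C O r (fun _ => 0) ν t T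

lemma exists_lim (T : Ultrafilter N) (ψ : N → WeakDual ℝ E) (h : ∀ ν, ψ ν ∈ DB E) :
    ∃ ψ₀ ∈ DB E, Tendsto ψ T (𝓝 ψ₀) :=
  isCompact_DB.ultrafilter_le_nhds (T.map ψ) (by
    rw [le_principal_iff, Ultrafilter.coe_map, Filter.mem_map]
    exact univ_mem' h)

lemma P_chain (hE : Refl E) {C : Set E} (h1 : IsClosed C) (h2 : Convex ℝ C)
    (h3 : C ⊆ closedBall 0 1) {ε : ℝ} (c : Set (Set (WeakDual ℝ E)))
    (hc : ∀ O ∈ c, IsOpen O ∧ S.P C ε O) (hchain : IsChain (· ⊆ ·) c) (hne : c.Nonempty) :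
    S.P C ε (⋃₀ c) := by
  intro r hr ν t h0 ht
  obtain ⟨U, hU⟩ := exists_chain_up c hchain hne
  choose T hT using fun s : c => (hc s s.2).2 r hr ν t h0 ht
  obtain ⟨a1, d, d₀, a2, a3, a4⟩ := S.drift_limit hE U (fun s => (hT s).1) fun _ => h3
  refine ⟨U.bind T, ⟨a1, d₀, a3.mem h2 h1 (Eventually.of_forall a2), a4⟩,
    fun ψ ψ₀ hψ hlim ⟨O, hO, hψ₀⟩ => ?_⟩
  choose φ hφ1 hφ2 using fun s => exists_lim (T s) ψ hψ
  obtain ⟨φ₀, -, hφ₀⟩ := exists_lim U φ hφ1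
  have hb : Tendsto ψ (U.bind T : Ultrafilter N) (𝓝 φ₀) :=
    tendsto_bind (Eventually.of_forall hφ2) hφ₀
  obtain rfl : φ₀ = ψ₀ := tendsto_nhds_unique hb hlim
  change ∀ᶠ ν' in Filter.bind _ _, _
  rw [eventually_bind]
  filter_upwards [hU O hO, hφ₀.eventually ((hc O hO).1.mem_nhds hψ₀)] with s hs hs'
  exact (hT s).2 ψ (φ s) hψ (hφ2 s) (hs hs')

lemma conv_comb {C : Set E} (hC : Convex ℝ C) {c c' : E} (hc : c ∈ C) (hc' : c' ∈ C) {a b : ℝ}
    (ha : 0 < a) (hb : 0 < b) : ∃ d ∈ C, (a + b) • d = a • c + b • c' := by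
  refine ⟨(a / (a + b)) • c + (b / (a + b)) • c',
    hC hc hc' (by positivity) (by positivity) (by field_simp), ?_⟩
  rw [smul_add, smul_smul, smul_smul, mul_div_cancel₀ _ (by positivity),
    mul_div_cancel₀ _ (by positivity)]

open Classical in
lemma first_block {C : Set E} (h3 : C ⊆ closedBall 0 1) {ε r : ℝ} (hε : 0 < ε) (hr : ε < r)
    {O U : Set (WeakDual ℝ E)} (hO : IsOpen O) (hU : IsOpen U)
    (hsmall : ∀ ψ ∈ U ∩ (DB E \ O), ∀ ψ' ∈ U ∩ (DB E \ O), ∀ x, ψ x - ψ' x ≤ ε / 2 * ‖x‖)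
    {ν : N} {l : ℝ} (hl : 0 < l) (hlm : l < S.m ν) {T : Ultrafilter N}
    (hT : S.Good C O r (fun _ => 0) ν (S.m ν - l) T) (ψ : N → WeakDual ℝ E) (ψ₀ : WeakDual ℝ E)
    (hψ : ∀ ν', ψ ν' ∈ DB E) (hlim : Tendsto ψ T (𝓝 ψ₀)) (hψ₀ : ψ₀ ∈ O ∪ U) :
    ∀ᶠ ν' in (T : Filter N), ψ ν' ∈ O ∪ U ∧ ∃ c ∈ C,
      ψ ν' (S.Z ν' - S.Z ν - l • c) + (if ψ ν' ∈ O then 0 else 2 * l) <
        l * r + if ψ₀ ∈ O then 0 else 2 * l := by
  obtain ⟨⟨hle, c, hc, hw⟩, hg⟩ := hT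
  rw [sub_sub_cancel] at hw hg
  by_cases h : ψ₀ ∈ O
  · filter_upwards [hg ψ ψ₀ hψ hlim h, hlim.eventually (hO.mem_nhds h)] with ν' a1 a2
    refine ⟨Or.inl a2, ?_⟩
    rw [if_pos h, if_pos (show ψ ν' ∈ O from a2)]
    simpa only [add_zero] using a1
  · have hU₀ : ψ₀ ∈ U := hψ₀.resolve_left h
    have hB₀ : ψ₀ ∈ DB E := isCompact_DB.isClosed.mem_of_tendsto hlim (Eventually.of_forall hψ)
    have hz : Tendsto (fun ν' => ψ₀ (S.Z ν' - S.Z ν - l • c)) T (𝓝 0) := by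
      have := (hw (WeakDual.toStrongDual ψ₀)).sub_const (ψ₀ (S.Z ν + l • c))
      simpa [sub_sub] using this
    filter_upwards [hlim.eventually (hU.mem_nhds hU₀), hle (S.step ν _ (by linarith) (by linarith)),
      hz.eventually (gt_mem_nhds (show 0 < l * (r - ε) from mul_pos hl (by linarith)))]
      with ν' a1 a2 a3
    refine ⟨Or.inr a1, c, hc, ?_⟩
    have hn : ‖S.Z ν' - S.Z ν - l • c‖ ≤ 2 * l := by
      have b1 : ‖l • c‖ ≤ l := by
        rw [norm_smul, Real.norm_of_nonneg hl.le]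
        exact mul_le_of_le_one_right hl.le (by simpa using h3 hc)
      have b2 := a2.2
      rw [sub_sub_cancel] at b2
      linarith [norm_sub_le (S.Z ν' - S.Z ν) (l • c)]
    rw [if_neg h]
    split_ifs with h'
    · have := DB.le (hψ ν') (S.Z ν' - S.Z ν - l • c)
      have : 0 < l * r := mul_pos hl (by linarith)
      linarith
    · have := hsmall _ ⟨a1, hψ ν', h'⟩ _ ⟨hU₀, hB₀, h⟩ (S.Z ν' - S.Z ν - l • c)
      nlinarith

open Classical in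
lemma concat (hE : Refl E) {C : Set E} (h1 : IsClosed C) (h2 : Convex ℝ C)
    (h3 : C ⊆ closedBall 0 1) {ε r : ℝ} (hε : 0 < ε) (hr : ε < r)
    {O U : Set (WeakDual ℝ E)} (hO : IsOpen O) (hU : IsOpen U) (hP : S.P C ε O)
    (hsmall : ∀ ψ ∈ U ∩ (DB E \ O), ∀ ψ' ∈ U ∩ (DB E \ O), ∀ x, ψ x - ψ' x ≤ ε / 2 * ‖x‖)
    {l : ℝ} (hl : 0 < l) (k : ℕ) : ∀ ν, (k + 1) * l < S.m ν →
      ∃ T, S.Good C (O ∪ U) r (fun ψ => if ψ ∈ O then 0 else 2 * l) ν (S.m ν - (k + 1) * l) T := by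
  induction k with
  | zero =>
    intro ν hν
    simp only [Nat.cast_zero, zero_add, one_mul] at hν ⊢
    obtain ⟨T, hT⟩ := hP r hr ν (S.m ν - l) (by linarith) (by linarith)
    refine ⟨T, hT.1, fun ψ ψ₀ hψ hlim hψ₀ => ?_⟩
    filter_upwards [S.first_block h3 hε hr hO hU hsmall hl hν hT ψ ψ₀ hψ hlim hψ₀] with ν' a
    obtain ⟨c, hc, a⟩ := a.2
    refine ⟨c, hc, ?_⟩
    rw [sub_sub_cancel]
    have : 0 ≤ if ψ ν' ∈ O then 0 else 2 * l := by split_ifs <;> positivity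
    linarith
  | succ k ih =>
    intro ν hν
    push_cast at hν ⊢
    have hk : 0 < ((k : ℝ) + 1) * l := by positivity
    obtain ⟨T, hT⟩ := hP r hr ν (S.m ν - l) (by linarith) (by linarith)
    have hst := (S.step ν _ (by linarith) (by linarith)).filter_mono hT.1.1
    have : ∀ ν₁, ∃ T₂, S.m ν₁ = S.m ν - l → S.Good C (O ∪ U) r
        (fun ψ => if ψ ∈ O then 0 else 2 * l) ν₁ (S.m ν₁ - (k + 1) * l) T₂ := fun ν₁ => by
      by_cases h : S.m ν₁ = S.m ν - l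
      · exact (ih ν₁ (by linarith)).imp fun _ h' _ => h'
      · exact ⟨T, fun h' => absurd h' h⟩
    choose T₂ hT₂ using this
    have e1 : S.m ν - (S.m ν - (k + 1 + 1) * l) = l + (k + 1) * l := by ring
    refine ⟨T.bind T₂, ⟨?_, ?_⟩, fun ψ ψ₀ hψ hlim hψ₀ => ?_⟩
    · refine le_trans ?_ (S.trans ν (S.m ν - l) _ (by linarith) (by linarith) (by linarith))
      intro s hs
      change s ∈ Filter.bind _ _
      rw [mem_bind'] at hs ⊢
      filter_upwards [hT.1.1 hs, hst] with ν₁ a1 a2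
      have := (hT₂ ν₁ a2.1).1.1
      rw [a2.1, show S.m ν - l - (k + 1) * l = S.m ν - (k + 1 + 1) * l by ring] at this
      exact this a1
    · obtain ⟨c, hc, hw⟩ := hT.1.2
      have : ∀ ν₁, ∃ c ∈ C, S.m ν₁ = S.m ν - l →
          WLim (T₂ ν₁ : Filter N) S.Z (S.Z ν₁ + ((k + 1) * l) • c) := fun ν₁ => by
        by_cases h : S.m ν₁ = S.m ν - l
        · obtain ⟨c, hc, hw⟩ := (hT₂ ν₁ h).1.2
          exact ⟨c, hc, fun _ => by rwa [sub_sub_cancel] at hw⟩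
        · exact ⟨c, hc, fun h' => absurd h' h⟩
      choose d hd1 hd2 using this
      obtain ⟨d₀, hd₀⟩ := exists_wlim hE T d 1
        (Eventually.of_forall fun i => by simpa using h3 (hd1 i))
      obtain ⟨c', hc', e2⟩ := conv_comb h2 hc (hd₀.mem h2 h1 (Eventually.of_forall hd1)) hl hk
      refine ⟨c', hc', WLim.bind (hst.mono fun ν₁ a => hd2 ν₁ a.1) fun ψ => ?_⟩
      rw [e1, e2, sub_sub_cancel] at *
      simpa [add_assoc] using (hw ψ).add ((hd₀ ψ).const_mul ((k + 1) * l))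
    · choose φ hφ1 hφ2 using fun s => exists_lim (T₂ s) ψ hψ
      obtain ⟨φ₀, -, hφ₀⟩ := exists_lim T φ hφ1
      have hb : Tendsto ψ (T.bind T₂ : Ultrafilter N) (𝓝 φ₀) :=
        tendsto_bind (Eventually.of_forall hφ2) hφ₀
      obtain rfl : φ₀ = ψ₀ := tendsto_nhds_unique hb hlim
      change ∀ᶠ ν' in Filter.bind _ _, _
      rw [eventually_bind]
      filter_upwards [S.first_block h3 hε hr hO hU hsmall hl (by linarith) hT φ φ₀ hφ1 hφ₀ hψ₀,
        hst] with ν₁ a1 a2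
      obtain ⟨a1, c, hc, a3⟩ := a1
      have a4 := (((WeakDual.eval_continuous (S.Z ν₁ - S.Z ν - l • c)).tendsto _).comp
        (hφ2 ν₁)).add_const (if φ ν₁ ∈ O then 0 else 2 * l)
      filter_upwards [(hT₂ ν₁ a2.1).2 ψ (φ ν₁) hψ (hφ2 ν₁) a1,
        a4.eventually (gt_mem_nhds a3)] with ν₂ b1 b2
      obtain ⟨c', hc', b1⟩ := b1
      obtain ⟨d, hd, e2⟩ := conv_comb h2 hc hc' hl hk
      refine ⟨d, hd, ?_⟩
      rw [sub_sub_cancel] at b1
      rw [e1, e2, show S.Z ν₂ - S.Z ν - (l • c + ((k + 1) * l) • c') =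
        (S.Z ν₁ - S.Z ν - l • c) + (S.Z ν₂ - S.Z ν₁ - ((k + 1) * l) • c') by abel, map_add]
      simp only [Function.comp] at b2
      linarith

lemma P_all (hE : Refl E) [TopologicalSpace.SeparableSpace E] {C : Set E} (h1 : IsClosed C)
    (h2 : Convex ℝ C) (h3 : C ⊆ closedBall 0 1) (hQ : S.Q C) {ε : ℝ} (hε : 0 < ε) :
    ∃ O, DB E ⊆ O ∧ S.P C ε O := by
  obtain ⟨O, -, hO⟩ := zorn_subset_nonempty {O | IsOpen O ∧ S.P C ε O}
    (fun c hc hchain hne => ⟨⋃₀ c, ⟨isOpen_sUnion fun s hs => (hc hs).1,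
      S.P_chain hE h1 h2 h3 c hc hchain hne⟩, fun s hs => subset_sUnion_of_mem hs⟩) ∅
    ⟨isOpen_empty, fun r _ ν t h0 ht => (hQ ν t h0 ht).imp fun T hT =>
      ⟨hT, fun _ _ _ _ h => absurd h (notMem_empty _)⟩⟩
  refine ⟨O, ?_, hO.prop.2⟩
  by_contra hn
  obtain ⟨U, hU, ⟨ψ, hψ⟩, hsmall⟩ := frag hE (isCompact_DB.diff hO.prop.1)
    (nonempty_of_not_subset hn) (half_pos hε)
  refine hψ.2.2 (hO.le_of_ge (y := O ∪ U) ⟨hO.prop.1.union hU, fun r hr ν t h0 ht => ?_⟩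
    subset_union_left (Or.inr hψ.1))
  obtain ⟨k, hk⟩ := exists_nat_gt (4 / (r - ε))
  have ha : 0 < S.m ν - t := by linarith
  have hk1 : (0 : ℝ) < k + 1 := by positivity
  obtain ⟨T, hT⟩ := S.concat hE h1 h2 h3 hε (r := (ε + r) / 2) (by linarith) hO.prop.1 hU hO.prop.2
    hsmall (l := (S.m ν - t) / (k + 1)) (by positivity) k ν
    (by rw [mul_div_cancel₀ _ hk1.ne']; linarith)
  rw [mul_div_cancel₀ _ hk1.ne', sub_sub_cancel] at hT
  refine ⟨T, hT.1, fun ψ ψ₀ a1 a2 a3 => ?_⟩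
  filter_upwards [hT.2 ψ ψ₀ a1 a2 a3] with ν' ⟨c, hc, b⟩
  refine ⟨c, hc, b.trans_le ?_⟩
  have b1 : 2 * ((S.m ν - t) / (k + 1)) ≤ (S.m ν - t) * ((r - ε) / 2) := by
    rw [div_lt_iff₀ (by linarith)] at hk
    rw [mul_div_assoc', div_le_iff₀ hk1]
    nlinarith
  have b2 : 0 ≤ (S.m ν - t) * ((r - ε) / 2) := mul_nonneg ha.le (by linarith)
  split_ifs <;> linarith

theorem concentration (hE : Refl E) [TopologicalSpace.SeparableSpace E] (ν₀ : N)
    (h₀ : 0 < S.m ν₀) {ε : ℝ} (hε : 0 < ε) :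
    ∃ (ν : N) (t : ℝ) (T : Ultrafilter N) (z : E), 0 < t ∧ t < S.m ν ∧ (T : Filter N) ≤ S.F ν t ∧
      WLim (T : Filter N) S.Z z ∧ ∀ᶠ ν' in (T : Filter N), ‖S.Z ν' - z‖ ≤ ε * (S.m ν - t) := by
  classical
  obtain ⟨C, hC⟩ := S.exists_C0 hE
  obtain ⟨h1, h2, h3, hQ⟩ := hC.prop
  obtain ⟨-, -, c₁, hc₁, -⟩ := hQ ν₀ (S.m ν₀ / 2) (by linarith) (by linarith)
  obtain ⟨g, c₀, δ, hc₀, hδ, hslice⟩ := dent hE h2 h1 ⟨c₁, hc₁⟩ (R := 1)
    (fun c hc => by simpa using h3 hc) (ε := ε / 3) (by positivity)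
  have hn : ¬ S.Q (C ∩ {c | g c ≤ g c₀ - δ / 2}) := fun h => by
    have := hC.le_of_le (y := C ∩ {c | g c ≤ g c₀ - δ / 2})
      ⟨h1.inter (isClosed_le g.continuous continuous_const),
        h2.inter (convex_halfSpace_le g.isLinear _), inter_subset_left.trans h3, h⟩
      inter_subset_left hc₀
    have := this.2
    simp only [mem_ofPred_eq] at this
    linarith
  simp only [Q, not_forall] at hn
  obtain ⟨ν, t, h0, ht, hn⟩ := hn
  set r : ℝ := min (ε / 3) (δ / (2 * (‖g‖ + 1))) with hr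
  have hr0 : 0 < r := by positivity
  have hr1 : r ≤ ε / 3 := min_le_left _ _
  have hr2 : ‖g‖ * r ≤ δ / 2 := by
    have : r ≤ δ / (2 * (‖g‖ + 1)) := min_le_right _ _
    rw [le_div_iff₀ (by positivity)] at this
    nlinarith
  obtain ⟨O, hO, hP⟩ := S.P_all hE h1 h2 h3 hQ (half_pos hr0)
  obtain ⟨T, ⟨hle, c, hc, hw⟩, hg⟩ := hP r (by linarith) ν t h0 ht
  have hgc : g c₀ - δ / 2 < g c := by
    by_contra h
    exact hn ⟨T, hle, c, ⟨hc, not_lt.1 h⟩, hw⟩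
  set a := S.m ν - t with ha
  have ha0 : 0 < a := by linarith
  have key : ∀ ν', ∃ ψ : WeakDual ℝ E, ψ ∈ DB E ∧ ∀ c ∈ C, ψ (S.Z ν' - S.Z ν - a • c) < a * r →
      ∃ c' ∈ C, ‖S.Z ν' - S.Z ν - a • c'‖ < a * r := fun ν' => by
    by_cases h : ∃ c' ∈ C, ‖S.Z ν' - S.Z ν - a • c'‖ < a * r
    · exact ⟨0, by simp [DB], fun _ _ _ => h⟩
    · push Not at h
      obtain ⟨ψ, b1, b2⟩ := exists_sep (h2.smul a) (S.Z ν' - S.Z ν) (mul_pos ha0 hr0)
        (by rintro _ ⟨c', hc', rfl⟩; exact h c' hc')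
      exact ⟨StrongDual.toWeakDual ψ, by simpa [DB] using b1, fun c' hc' b3 =>
        absurd (b2 _ ⟨c', hc', rfl⟩) (not_le.2 b3)⟩
  choose ψ hψ1 hψ2 using key
  obtain ⟨ψ₀, b1, b2⟩ := exists_lim T ψ hψ1
  refine ⟨ν, t, T, _, h0, ht, hle, hw, ?_⟩
  have b3 : g (S.Z ν) + a * (g c₀ - δ / 2) < g (S.Z ν + a • c) := by
    rw [map_add, map_smul, smul_eq_mul]; nlinarith
  filter_upwards [hg ψ ψ₀ hψ1 b2 (hO b1), (hw g).eventually (lt_mem_nhds b3)] with ν' b4 b5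
  obtain ⟨c', hc', b4⟩ := b4
  obtain ⟨d, hd, b6⟩ := hψ2 ν' c' hc' (by simpa using b4)
  have b7 : g (S.Z ν' - S.Z ν - a • d) ≤ ‖g‖ * (a * r) :=
    (le_abs_self _).trans ((g.le_opNorm _).trans (by gcongr))
  rw [map_sub, map_sub, map_smul, smul_eq_mul] at b7
  have b8 : g c₀ - δ < g d := by
    by_contra h
    nlinarith [not_lt.1 h]
  have b9 := hslice d hd b8
  have b10 := hslice c hc (by linarith)
  have b11 : ‖a • (d - c)‖ ≤ a * (2 * ε / 3) := by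
    rw [norm_smul, Real.norm_of_nonneg ha0.le]
    gcongr
    have := norm_sub_le_norm_sub_add_norm_sub d c₀ c
    rw [norm_sub_rev c₀] at this
    linarith
  rw [show S.Z ν' - (S.Z ν + a • c) = (S.Z ν' - S.Z ν - a • d) + a • (d - c) by
    rw [smul_sub]; abel]
  refine (norm_add_le _ _).trans ?_
  nlinarith

end Sys

end Crest.Agent.R108
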