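import Crest.Agent.R108.Abstract

/-! Nonexpansive maps on bounded closed convex subsets of reflexive spaces have fixed points. -/

set_option autoImplicit false

namespace Crest.Agent.R108

open Filter Topology Set Metric

variable {E : Type*} [NormedAddCommGroup E] [NormedSpace ℝ E]

/-- nonempty closed convex invariant subsets of `C` -/
def Inv (C : Set E) (F : E → E) : Set (Set E) :=
  {K | K ⊆ C ∧ K.Nonempty ∧ IsClosed K ∧ Convex ℝ K ∧ MapsTo F K K}

lemma exists_minimal (hE : Refl E) {C : Set E} {F : E → E} (hC : C ∈ Inv C F) {R : ℝ}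
    (hR : ∀ x ∈ C, ‖x‖ ≤ R) : ∃ K, Minimal (· ∈ Inv C F) K := by
  refine (zorn_superset_nonempty (Inv C F) (fun c hc hchain hne => ?_) C hC).imp fun _ h => h.2
  refine ⟨⋂₀ c, ⟨(sInter_subset_of_mem hne.some_mem).trans (hc hne.some_mem).1, ?_,
    isClosed_sInter fun s hs => (hc hs).2.2.1, convex_sInter fun s hs => (hc hs).2.2.2.1,
    fun x hx s hs => (hc hs).2.2.2.2 (hx s hs)⟩, fun s hs => sInter_subset_of_mem hs⟩
  obtain ⟨U, hU⟩ := exists_chain_down c hchain hne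
  choose x hx using fun s : c => (hc s.2).2.1
  obtain ⟨z, hz⟩ := exists_wlim hE U x R (Eventually.of_forall fun s => hR _ ((hc s.2).1 (hx s)))
  exact ⟨z, fun s hs => hz.mem (hc hs).2.2.2.1 (hc hs).2.2.1 ((hU s hs).mono fun i hi => hi (hx i))⟩

/-- Goebel–Karlovitz lemma -/
lemma gk (hE : Refl E) {C K : Set E} {F : E → E} (hK : Minimal (· ∈ Inv C F) K) {R : ℝ}
    (hR : ∀ x ∈ K, ‖x‖ ≤ R) (hF : ∀ a ∈ K, ∀ b ∈ K, ‖F a - F b‖ ≤ ‖a - b‖) {w : E} (hw : w ∈ K)
    {η : ℝ} (hη : 0 < η) : ∃ δ > 0, ∀ x ∈ K, ‖x - F x‖ ≤ δ → diam K - η ≤ ‖x - w‖ := by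
  obtain ⟨h1, h2, h3, h4, h5⟩ := hK.prop
  by_contra hn
  push Not at hn
  choose x hx1 hx2 hx3 using fun n : ℕ => hn (1 / (n + 1)) (by positivity)
  set r := diam K - η with hr
  have hK1 : K ⊆ {y ∈ K | ∀ ζ > 0, ∀ᶠ n in (hyperfilter ℕ : Filter ℕ), ‖x n - y‖ ≤ r + ζ} := by
    refine hK.le_of_le ⟨fun y hy => h1 hy.1, ⟨w, hw, fun ζ hζ => Eventually.of_forall fun n => by
      linarith [hx3 n]⟩, ?_, ?_, ?_⟩ fun y hy => hy.1
    · refine isClosed_of_closure_subset fun y hy => ⟨closure_minimal (fun y hy => hy.1) h3 hy,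
        fun ζ hζ => ?_⟩
      obtain ⟨y', hy', hd⟩ := Metric.mem_closure_iff.1 hy (ζ / 2) (by positivity)
      filter_upwards [hy'.2 (ζ / 2) (by positivity)] with n hn
      rw [dist_comm, dist_eq_norm] at hd
      linarith [norm_sub_le_norm_sub_add_norm_sub (x n) y' y]
    · intro y hy y' hy' a b ha hb hab
      refine ⟨h4 hy.1 hy'.1 ha hb hab, fun ζ hζ => ?_⟩
      filter_upwards [hy.2 ζ hζ, hy'.2 ζ hζ] with n a1 a2
      have := convex_closedBall (x n) (r + ζ) (x := y) (y := y')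
        (by rwa [mem_closedBall, dist_comm, dist_eq_norm])
        (by rwa [mem_closedBall, dist_comm, dist_eq_norm]) ha hb hab
      rwa [mem_closedBall, dist_comm, dist_eq_norm] at this
    · intro y hy
      refine ⟨h5 hy.1, fun ζ hζ => ?_⟩
      have hev : ∀ᶠ n : ℕ in (hyperfilter ℕ : Filter ℕ), 1 / ((n : ℝ) + 1) < ζ / 2 :=
        (tendsto_one_div_add_atTop_nhds_zero_nat.eventually (gt_mem_nhds (half_pos hζ))).filter_mono
          (Nat.cofinite_eq_atTop ▸ hyperfilter_le_cofinite)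
      filter_upwards [hy.2 (ζ / 2) (by positivity), hev] with n a1 a2
      linarith [norm_sub_le_norm_sub_add_norm_sub (x n) (F (x n)) (F y), hF _ (hx1 n) _ hy.1, hx2 n]
  obtain ⟨z, hz⟩ := exists_wlim hE (hyperfilter ℕ) x R (Eventually.of_forall fun n => hR _ (hx1 n))
  have hK2 : K ⊆ closure (convexHull ℝ (F '' K)) := by
    have hs : closure (convexHull ℝ (F '' K)) ⊆ K :=
      closure_minimal (convexHull_min h5.image_subset h4) h3
    exact hK.le_of_le ⟨hs.trans h1, ((h2.image F).mono (subset_convexHull ℝ _)).closure,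
      isClosed_closure, (convex_convexHull ℝ _).closure,
      fun y hy => subset_closure (subset_convexHull ℝ _ ⟨y, hs hy, rfl⟩)⟩ hs
  have hK3 : K ⊆ K ∩ ⋂ y ∈ K, closedBall y r := by
    refine hK.le_of_le ⟨fun y hy => h1 hy.1, ⟨z, hz.mem h4 h3 (Eventually.of_forall hx1), ?_⟩,
      h3.inter (isClosed_biInter fun _ _ => isClosed_closedBall),
      h4.inter (convex_iInter₂ fun _ _ => convex_closedBall _ _), fun u hu => ⟨h5 hu.1, ?_⟩⟩
      inter_subset_left
    · simp only [mem_iInter, mem_closedBall, dist_eq_norm]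
      exact fun y hy => le_of_forall_pos_le_add fun ζ hζ => hz.norm_sub_le y ((hK1 hy).2 ζ hζ)
    · have hu2 := hu.2
      simp only [mem_iInter, mem_closedBall, dist_eq_norm] at hu2 ⊢
      intro y hy
      have : closure (convexHull ℝ (F '' K)) ⊆ closedBall (F u) r :=
        closure_minimal (convexHull_min (by
          rintro _ ⟨v, hv, rfl⟩
          rw [mem_closedBall, dist_comm, dist_eq_norm]
          exact (hF u hu.1 v hv).trans (hu2 v hv)) (convex_closedBall _ _)) isClosed_closedBall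
      have := this (hK2 hy)
      rwa [mem_closedBall, dist_comm, dist_eq_norm] at this
  have hr0 : 0 ≤ r := (norm_nonneg _).trans (hx3 0).le
  have : diam K ≤ r := diam_le_of_forall_dist_le hr0 fun a ha b hb => by
    have := (hK3 ha).2
    simp only [mem_iInter] at this
    exact this b hb
  linarith

lemma resolvent [CompleteSpace E] {K : Set E} {F : E → E} (h3 : IsClosed K) (h4 : Convex ℝ K)
    (h5 : MapsTo F K K) (hF : ∀ a ∈ K, ∀ b ∈ K, ‖F a - F b‖ ≤ ‖a - b‖) {ε : ℝ} (h0 : 0 < ε)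
    (h1 : ε < 1) {y : E} (hy : y ∈ K) : ∃ u ∈ K, u = ε • y + (1 - ε) • F u := by
  have hm : MapsTo (fun u => ε • y + (1 - ε) • F u) K K := fun u hu =>
    h4 hy (h5 hu) h0.le (by linarith) (by ring)
  have hc : ContractingWith ⟨1 - ε, by linarith⟩ (hm.restrict _ K K) := by
    refine ⟨by change (1 - ε : ℝ) < 1; linarith, LipschitzWith.of_dist_le_mul fun a b => ?_⟩
    change dist (ε • y + (1 - ε) • F a) (ε • y + (1 - ε) • F b) ≤ (1 - ε) * dist (a : E) b
    rw [dist_eq_norm, dist_eq_norm, add_sub_add_left_eq_sub, ← smul_sub, norm_smul,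
      Real.norm_of_nonneg (by linarith)]
    exact mul_le_mul_of_nonneg_left (hF a a.2 b b.2) (by linarith)
  obtain ⟨u, hu, hfix, -⟩ := hc.exists_fixedPoint' h3.isComplete hm hy (edist_ne_top _ _)
  exact ⟨u, hu, hfix.symm⟩

/-- admissible maps with remaining fraction `s` -/
def Adm (K : Set E) (F : E → E) (s : ℝ) (Φ : E → E) : Prop :=
  MapsTo Φ K K ∧ (∀ y ∈ K, ∀ y' ∈ K, ‖Φ y - Φ y'‖ ≤ s * ‖y - y'‖) ∧
    ∃ c : ℝ, 0 ≤ c ∧ ∀ x ∈ K, ∀ y ∈ K,
      ‖Φ y - x‖ ≤ s * ‖y - x‖ + (1 - s) * diam K + c * ‖x - F x‖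

omit [NormedSpace ℝ E] in
lemma Adm.comp {K : Set E} {F : E → E} {s s' : ℝ} {Φ Φ' : E → E} (h : Adm K F s Φ)
    (h' : Adm K F s' Φ') (hs : 0 ≤ s) : Adm K F (s * s') (Φ ∘ Φ') := by
  obtain ⟨a1, a2, c, hc, a3⟩ := h
  obtain ⟨b1, b2, c', hc', b3⟩ := h'
  refine ⟨a1.comp b1, fun y hy y' hy' => (a2 _ (b1 hy) _ (b1 hy')).trans ?_,
    c + s * c', by positivity, fun x hx y hy => (a3 x hx _ (b1 hy)).trans ?_⟩
  · rw [mul_assoc]; exact mul_le_mul_of_nonneg_left (b2 y hy y' hy') hs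
  · have := mul_le_mul_of_nonneg_left (b3 x hx y hy) hs
    linarith

lemma exists_step [CompleteSpace E] {K : Set E} {F : E → E} (h2 : K.Nonempty) (h3 : IsClosed K)
    (h4 : Convex ℝ K) (h5 : MapsTo F K K) (hb : Bornology.IsBounded K)
    (hF : ∀ a ∈ K, ∀ b ∈ K, ‖F a - F b‖ ≤ ‖a - b‖) {s δ : ℝ} (h0 : 0 ≤ s) (h1 : s ≤ 1)
    (hδ : 0 < δ) : ∃ Φ, Adm K F s Φ ∧ ∀ y ∈ K, ‖Φ y - F (Φ y)‖ ≤ δ := by
  obtain ⟨ρ, hρ⟩ := h2
  have hd0 : 0 ≤ diam K := diam_nonneg
  have hd : ∀ a ∈ K, ∀ b ∈ K, ‖a - b‖ ≤ diam K := fun a ha b hb' => by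
    rw [← dist_eq_norm]; exact dist_le_diam_of_mem hb ha hb'
  set ε : ℝ := min (1 / 2) (δ / (diam K + 1)) with hε
  have e0 : 0 < ε := by positivity
  have e1 : ε < 1 := (min_le_left _ _).trans_lt (by norm_num)
  have e2 : ε * diam K ≤ δ := by
    have : ε ≤ δ / (diam K + 1) := min_le_right _ _
    rw [le_div_iff₀ (by positivity)] at this
    nlinarith
  choose! R hR1 hR2 using fun y (hy : y ∈ K) => resolvent h3 h4 h5 hF e0 e1 hy
  have hm : ∀ y ∈ K, s • y + (1 - s) • ρ ∈ K := fun y hy => h4 hy hρ h0 (by linarith) (by ring)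
  have key : ∀ y ∈ K, ∀ a b : E, ‖F (R y) - b‖ ≤ ‖R y - (ε • a + (1 - ε) • b)‖ + 0 →
      ‖R y - (ε • a + (1 - ε) • b)‖ ≤ ‖y - a‖ := fun y hy a b h => by
    have : R y - (ε • a + (1 - ε) • b) = ε • (y - a) + (1 - ε) • (F (R y) - b) := by
      conv_lhs => rw [hR2 y hy]
      rw [smul_sub, smul_sub]; abel
    have h' := norm_add_le (ε • (y - a)) ((1 - ε) • (F (R y) - b))
    rw [← this, norm_smul, norm_smul, Real.norm_of_nonneg e0.le,
      Real.norm_of_nonneg (by linarith : 0 ≤ 1 - ε)] at h'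
    have h'' := mul_le_mul_of_nonneg_left h (by linarith : 0 ≤ 1 - ε)
    exact le_of_mul_le_mul_left (by linarith) e0
  refine ⟨fun y => R (s • y + (1 - s) • ρ), ⟨fun y hy => hR1 _ (hm y hy), fun y hy y' hy' => ?_,
    1 / ε, by positivity, fun x hx y hy => ?_⟩, fun y hy => ?_⟩
  · have := key _ (hm y hy) (s • y' + (1 - s) • ρ) (F (R (s • y' + (1 - s) • ρ))) (by
      rw [← hR2 _ (hm y' hy'), add_zero]; exact hF _ (hR1 _ (hm y hy)) _ (hR1 _ (hm y' hy')))
    rwa [← hR2 _ (hm y' hy'), add_sub_add_right_eq_sub, ← smul_sub, norm_smul,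
      Real.norm_of_nonneg h0] at this
  · set v := s • y + (1 - s) • ρ with hv
    have hvK := hm y hy
    have a1 : R v - x = ε • (v - x) + (1 - ε) • (F (R v) - x) := by
      conv_lhs => rw [hR2 v hvK]
      rw [smul_sub, smul_sub, sub_smul 1 ε x, one_smul]; abel
    have a2 := norm_add_le (ε • (v - x)) ((1 - ε) • (F (R v) - x))
    rw [← a1, norm_smul, norm_smul, Real.norm_of_nonneg e0.le,
      Real.norm_of_nonneg (by linarith : 0 ≤ 1 - ε)] at a2
    have a3 := norm_sub_le_norm_sub_add_norm_sub (F (R v)) (F x) x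
    rw [norm_sub_rev (F x)] at a3
    have a4 := hF _ (hR1 v hvK) x hx
    have a5 : v - x = s • (y - x) + (1 - s) • (ρ - x) := by
      rw [hv, smul_sub, smul_sub, sub_smul 1 s x, one_smul]; abel
    have a6 := norm_add_le (s • (y - x)) ((1 - s) • (ρ - x))
    rw [← a5, norm_smul, norm_smul, Real.norm_of_nonneg h0,
      Real.norm_of_nonneg (by linarith : 0 ≤ 1 - s)] at a6
    have a7 := mul_le_mul_of_nonneg_left (hd ρ hρ x hx) (by linarith : 0 ≤ 1 - s)
    have a8 : ε * ‖R v - x‖ ≤ ε * ‖v - x‖ + ‖x - F x‖ := by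
      nlinarith [norm_nonneg (x - F x)]
    have a9 : ‖R v - x‖ ≤ ‖v - x‖ + 1 / ε * ‖x - F x‖ := by
      refine le_of_mul_le_mul_left ?_ e0
      rw [mul_add, ← mul_assoc, mul_one_div_cancel e0.ne', one_mul]; exact a8
    linarith
  · set v := s • y + (1 - s) • ρ with hv
    have hvK := hm y hy
    have a1 : R v - F (R v) = ε • (v - F (R v)) := by
      conv_lhs => rw [hR2 v hvK, ← hR2 v hvK]
      nth_rewrite 1 [hR2 v hvK]
      rw [smul_sub, sub_smul, one_smul]; abel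
    rw [a1, norm_smul, Real.norm_of_nonneg e0.le]
    exact (mul_le_mul_of_nonneg_left (hd _ hvK _ (h5 (hR1 v hvK))) e0.le).trans e2

/-- nodes -/
def Node (K : Set E) (F : E → E) := {p : (E → E) × ℝ // 0 < p.2 ∧ Adm K F p.2 p.1}

/-- children -/
def Child (K : Set E) (F : E → E) (p : Node K F) (t δ : ℝ) : Set (Node K F) :=
  {q | q.1.2 * diam K = t ∧ ∃ Φ, Adm K F (q.1.2 / p.1.2) Φ ∧ (∀ y ∈ K, ‖Φ y - F (Φ y)‖ ≤ δ) ∧
    q.1.1 = p.1.1 ∘ Φ}

/-- the filter of children -/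
def childFilter (K : Set E) (F : E → E) (p : Node K F) (t : ℝ) : Filter (Node K F) where
  sets := {A | ∃ δ > 0, Child K F p t δ ⊆ A}
  univ_sets := ⟨1, one_pos, subset_univ _⟩
  sets_of_superset := fun ⟨δ, h, h'⟩ hs => ⟨δ, h, h'.trans hs⟩
  inter_sets := fun ⟨δ, h1, h2⟩ ⟨δ', h1', h2'⟩ => ⟨min δ δ', lt_min h1 h1',
    fun _ ⟨a, Φ, b1, b2, b3⟩ => ⟨h2 ⟨a, Φ, b1, fun y hy => (b2 y hy).trans (min_le_left _ _), b3⟩,
      h2' ⟨a, Φ, b1, fun y hy => (b2 y hy).trans (min_le_right _ _), b3⟩⟩⟩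

theorem fpp_sep [CompleteSpace E] [TopologicalSpace.SeparableSpace E] (hE : Refl E) {C : Set E}
    {F : E → E} (hC : C ∈ Inv C F) (hb : Bornology.IsBounded C)
    (hF : ∀ a ∈ C, ∀ b ∈ C, ‖F a - F b‖ ≤ ‖a - b‖) : ∃ x ∈ C, F x = x := by
  obtain ⟨R, hR⟩ := hb.exists_norm_le
  obtain ⟨K, hK⟩ := exists_minimal hE hC hR
  obtain ⟨h1, h2, h3, h4, h5⟩ := hK.prop
  have hbK := hb.subset h1
  have hFK : ∀ a ∈ K, ∀ b ∈ K, ‖F a - F b‖ ≤ ‖a - b‖ := fun a ha b hb => hF a (h1 ha) b (h1 hb)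
  have hRK : ∀ x ∈ K, ‖x‖ ≤ R := fun x hx => hR x (h1 hx)
  have hd : ∀ a ∈ K, ∀ b ∈ K, ‖a - b‖ ≤ diam K := fun a ha b hb' => by
    rw [← dist_eq_norm]; exact dist_le_diam_of_mem hbK ha hb'
  obtain ⟨ρ, hρ⟩ := h2
  rcases (diam_nonneg (s := K)).eq_or_lt with h0 | h0
  · exact ⟨ρ, h1 hρ, sub_eq_zero.1 (norm_le_zero_iff.1 (h0 ▸ hd _ (h5 hρ) _ hρ))⟩
  exfalso
  choose Ψ hΨ1 hΨ2 using fun n : ℕ => exists_step ⟨ρ, hρ⟩ h3 h4 h5 hbK hFK zero_le_one le_rfl
    (δ := 1 / (n + 1)) (by positivity)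
  set x : ℕ → E := fun n => Ψ n ρ with hx
  have hxK : ∀ n, x n ∈ K := fun n => (hΨ1 n).1 hρ
  have hx0 : Tendsto (fun n => ‖x n - F (x n)‖) (hyperfilter ℕ) (𝓝 0) :=
    (squeeze_zero (fun _ => norm_nonneg _) (fun n => hΨ2 n ρ hρ)
      tendsto_one_div_add_atTop_nhds_zero_nat).mono_left
      (Nat.cofinite_eq_atTop ▸ hyperfilter_le_cofinite)
  choose Z hZ using fun p : Node K F => exists_wlim hE (hyperfilter ℕ) (fun n => p.1.1 (x n)) R
    (Eventually.of_forall fun n => hRK _ (p.2.2.1 (hxK n)))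
  have hZK : ∀ p, Z p ∈ K := fun p =>
    (hZ p).mem h4 h3 (Eventually.of_forall fun n => p.2.2.1 (hxK n))
  let S : Sys (Node K F) E :=
    { m := fun p => p.1.2 * diam K
      Z := Z
      F := childFilter K F
      neBot := fun p t a1 a2 => by
        refine ⟨fun h => ?_⟩
        obtain ⟨δ, hδ, hs⟩ : (∅ : Set (Node K F)) ∈ childFilter K F p t := h ▸ mem_bot
        have hp := p.2.1
        obtain ⟨Φ, b1, b2⟩ := exists_step ⟨ρ, hρ⟩ h3 h4 h5 hbK hFK (s := t / diam K / p.1.2)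
          (by positivity) (by rw [div_le_one hp, div_le_iff₀ h0]; exact a2.le) hδ
        have b3 := p.2.2.comp b1 hp.le
        rw [mul_div_cancel₀ _ hp.ne'] at b3
        exact hs (a := ⟨(p.1.1 ∘ Φ, t / diam K), by positivity, b3⟩)
          ⟨div_mul_cancel₀ _ h0.ne', Φ, b1, b2, rfl⟩
      step := fun p t a1 a2 => by
        refine ⟨1, one_pos, fun q ⟨b1, Φ, ⟨b2, b3, c, hc, b4⟩, b5, b6⟩ => ⟨b1, ?_⟩⟩
        have hp := p.2.1
        refine le_of_forall_pos_le_add fun ζ hζ => ?_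
        have := ((hZ q).sub (hZ p)).norm_sub_le 0 (r := p.1.2 * diam K - t + ζ) (by
          have hl := hx0.const_mul (p.1.2 * c)
          rw [mul_zero] at hl
          filter_upwards [hl.eventually (gt_mem_nhds hζ)] with n hn
          rw [sub_zero, b6]
          refine (p.2.2.2.1 _ (b2 (hxK n)) _ (hxK n)).trans ?_
          have c1 := mul_le_mul_of_nonneg_left (b4 _ (hxK n) _ (hxK n)) hp.le
          rw [sub_self, norm_zero, mul_zero, zero_add] at c1
          have c2 : p.1.2 * ((1 - q.1.2 / p.1.2) * diam K) = p.1.2 * diam K - t := by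
            rw [← b1]; field_simp
          nlinarith)
        rwa [sub_zero] at this
      trans := fun p t t' a1 a2 a3 s ⟨δ, hδ, hs⟩ => by
        rw [mem_bind']
        refine ⟨δ, hδ, fun q ⟨b1, Φ, b2, b5, b6⟩ => ⟨1, one_pos,
          fun q' ⟨c1, Φ', c2, c5, c6⟩ => hs ⟨c1, Φ ∘ Φ', ?_, fun y hy => b5 _ (c2.1 hy), ?_⟩⟩⟩
        · have hp := p.2.1
          have hq := q.2.1
          have := b2.comp c2 (by positivity)
          rwa [show q.1.2 / p.1.2 * (q'.1.2 / q.1.2) = q'.1.2 / p.1.2 by field_simp] at this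
        · rw [c6, b6]; rfl }
  obtain ⟨p, t, T, z, a1, a2, a3, a4, a5⟩ := S.concentration hE
    ⟨(id, 1), one_pos, mapsTo_id K, by simp, 0, le_rfl, by simp⟩ (by simpa [S] using h0)
    (ε := 1 / 2) (by norm_num)
  have hzK : z ∈ K := a4.mem h4 h3 (Eventually.of_forall hZK)
  change t < p.1.2 * diam K at a2
  obtain ⟨c, hc, hp3⟩ := p.2.2.2.2
  have hp := p.2.1
  set a := p.1.2 * diam K - t with ha
  have ha0 : 0 < a := by linarith
  obtain ⟨δ, hδ, hgk⟩ := gk hE hK hRK hFK hzK (η := a / 8) (by positivity)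
  have a6 : ∀ᶠ q in (T : Filter (Node K F)), q ∈ Child K F p t (min δ (a / 8 / (c + 1))) :=
    a3 (show Child K F p t (min δ (a / 8 / (c + 1))) ∈ childFilter K F p t from
      ⟨_, by positivity, subset_rfl⟩)
  obtain ⟨q, ⟨b1, Φ, ⟨b2, b3, -⟩, b5, b6⟩, b7⟩ := (a6.and a5).exists
  change ‖Z q - z‖ ≤ 1 / 2 * a at b7
  have c1 := hgk _ (b2 hρ) ((b5 ρ hρ).trans (min_le_left _ _))
  have c2 : c * ‖Φ ρ - F (Φ ρ)‖ ≤ a / 8 := by
    have := (b5 ρ hρ).trans (min_le_right _ _)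
    rw [le_div_iff₀ (by positivity)] at this
    nlinarith [norm_nonneg (Φ ρ - F (Φ ρ))]
  have c3 : ‖Z q - Φ ρ‖ ≤ t + (1 - p.1.2) * diam K + a / 8 :=
    (hZ q).norm_sub_le _ (Eventually.of_forall fun n => by
      rw [b6]
      refine (hp3 _ (b2 hρ) _ (b2 (hxK n))).trans ?_
      have hq := q.2.1
      have d1 := (b3 _ (hxK n) _ hρ).trans
        (mul_le_mul_of_nonneg_left (hd _ (hxK n) _ hρ) (by positivity))
      have d2 := mul_le_mul_of_nonneg_left d1 hp.le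
      have d3 : p.1.2 * (q.1.2 / p.1.2 * diam K) = t := by rw [← b1]; field_simp
      linarith)
  have c4 := norm_sub_le_norm_sub_add_norm_sub (Φ ρ) (Z q) z
  rw [norm_sub_rev (Φ ρ) (Z q)] at c4
  linarith

theorem fpp [CompleteSpace E] (hE : Refl E) {C : Set E} {F : E → E} (hC : C ∈ Inv C F)
    (hb : Bornology.IsBounded C) (hF : ∀ a ∈ C, ∀ b ∈ C, ‖F a - F b‖ ≤ ‖a - b‖) :
    ∃ x ∈ C, F x = x := by
  classical
  obtain ⟨-, ⟨x₀, hx₀⟩, h3, h4, h5⟩ := hC
  let A : ℕ → Set E := fun n => Nat.rec {x₀} (fun _ B => convexHull ℝ (B ∪ F '' B)) n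
  have hA1 : ∀ n, A n ⊆ C := fun n => by
    induction n with
    | zero => exact singleton_subset_iff.2 hx₀
    | succ n ih => exact convexHull_min (union_subset ih ((h5.mono_left ih).image_subset)) h4
  have hcont : ContinuousOn F C :=
    (LipschitzOnWith.of_dist_le_mul (K := 1) fun a ha b hb => by
      simpa [dist_eq_norm] using hF a ha b hb).continuousOn
  have hA2 : ∀ n, TopologicalSpace.IsSeparable (A n) := fun n => by
    induction n with
    | zero => exact (countable_singleton x₀).isSeparable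
    | succ n ih =>
      exact ((ih.union ((hcont.mono (hA1 n)).isSeparable_image ih)).span (R := ℝ)).mono
        (convexHull_min Submodule.subset_span (Submodule.convex _))
  have hA3 : Monotone A := monotone_nat_of_le_succ fun n =>
    subset_union_left.trans (subset_convexHull ℝ _)
  have hA4 : ∀ n, Convex ℝ (A n) := fun n => by
    cases n with
    | zero => exact convex_singleton x₀
    | succ n => exact convex_convexHull ℝ _
  set B := closure (⋃ n, A n) with hB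
  have hBC : B ⊆ C := closure_minimal (iUnion_subset hA1) h3
  have hB2 : Convex ℝ B := (hA3.directed_le.convex_iUnion hA4).closure
  have hB3 : MapsTo F B B := fun y hy =>
    closure_mono (by
      rintro _ ⟨v, hv, rfl⟩
      obtain ⟨n, hn⟩ := mem_iUnion.1 hv
      exact mem_iUnion.2 ⟨n + 1, subset_convexHull ℝ _ (Or.inr ⟨v, hn, rfl⟩)⟩)
      ((hcont.mono hBC).image_closure ⟨y, hy, rfl⟩)
  set Y := (Submodule.span ℝ B).topologicalClosure with hY
  have hBY : B ⊆ Y := Submodule.subset_span.trans (Submodule.le_topologicalClosure _)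
  have hYc : IsClosed (Y : Set E) := Submodule.isClosed_topologicalClosure _
  have : CompleteSpace Y := hYc.completeSpace_coe
  have : TopologicalSpace.SeparableSpace Y :=
    (((TopologicalSpace.IsSeparable.iUnion hA2).closure.span (R := ℝ)).closure).separableSpace
  have hx₀B : x₀ ∈ B := subset_closure (mem_iUnion.2 ⟨0, rfl⟩)
  obtain ⟨y, hy1, hy2⟩ := fpp_sep (hE.submodule Y hYc) (C := Subtype.val ⁻¹' B)
    (F := fun y => if h : (y : E) ∈ B then ⟨F y, hBY (hB3 h)⟩ else y)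
    ⟨subset_rfl, ⟨⟨x₀, hBY hx₀B⟩, hx₀B⟩, isClosed_closure.preimage continuous_subtype_val,
      hB2.linear_preimage Y.subtype, fun y (hy : (y : E) ∈ B) => by
        simp only [dif_pos hy]
        exact hB3 hy⟩
    (by
      obtain ⟨R, hR⟩ := hb.exists_norm_le
      exact isBounded_iff_forall_norm_le.2 ⟨R, fun y hy => hR y (hBC hy)⟩)
    (fun a (ha : (a : E) ∈ B) b (hb : (b : E) ∈ B) => by
      simp only [dif_pos ha, dif_pos hb]
      exact hF a (hBC ha) b (hBC hb))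
  have hy1' : (y : E) ∈ B := hy1
  simp only [dif_pos hy1'] at hy2
  exact ⟨y, hBC hy1', congrArg Subtype.val hy2⟩

end Crest.Agent.R108
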