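import Mathlib

/-! Weak limits along ultrafilters in reflexive spaces; dentability and fragmentability. -/

set_option autoImplicit false

namespace Crest.Agent.R108

open Filter Topology Set Metric

variable {E : Type*} [NormedAddCommGroup E] [NormedSpace ℝ E]

/-- reflexivity -/
def Refl (E : Type*) [NormedAddCommGroup E] [NormedSpace ℝ E] : Prop :=
  ∀ ξ : (E →L[ℝ] ℝ) →L[ℝ] ℝ, ∃ x : E, ∀ φ : E →L[ℝ] ℝ, ξ φ = φ x

/-- weak limit along a filter -/
def WLim {ι : Type*} (F : Filter ι) (f : ι → E) (z : E) : Prop :=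
  ∀ ψ : E →L[ℝ] ℝ, Tendsto (fun i => ψ (f i)) F (𝓝 (ψ z))

/-- the dual unit ball with the weak-star topology -/
def DB (E : Type*) [NormedAddCommGroup E] [NormedSpace ℝ E] : Set (WeakDual ℝ E) :=
  WeakDual.toStrongDual ⁻¹' closedBall 0 1

lemma isCompact_DB : IsCompact (DB E) := WeakDual.isCompact_closedBall 0 1

lemma DB.le {ψ : WeakDual ℝ E} (h : ψ ∈ DB E) (x : E) : ψ x ≤ ‖x‖ := by
  have h1 : ‖WeakDual.toStrongDual ψ‖ ≤ 1 := by simpa [DB] using h
  have := (WeakDual.toStrongDual ψ).le_of_opNorm_le h1 x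
  rw [one_mul] at this
  exact (le_abs_self _).trans this

lemma tendsto_bind {ι N Y : Type*} [TopologicalSpace Y] {U : Filter ι} {T : ι → Filter N}
    {f : N → Y} {y : ι → Y} {y₀ : Y} (h1 : ∀ᶠ i in U, Tendsto f (T i) (𝓝 (y i)))
    (h2 : Tendsto y U (𝓝 y₀)) : Tendsto f (U.bind T) (𝓝 y₀) := by
  rw [_root_.tendsto_nhds]
  intro W hW hy
  rw [mem_bind']
  filter_upwards [h1, h2.eventually (hW.mem_nhds hy)] with i hi hi'
  exact hi (hW.mem_nhds hi')

lemma exists_wslim {ι : Type*} (U : Ultrafilter ι) (ψ : ι → E →L[ℝ] ℝ) (R : ℝ)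
    (h : ∀ᶠ i in U, ‖ψ i‖ ≤ R) :
    ∃ ψ₀ : E →L[ℝ] ℝ, ∀ x, Tendsto (fun i => ψ i x) U (𝓝 (ψ₀ x)) := by
  obtain ⟨ψ₀, -, h2⟩ := (WeakDual.isCompact_closedBall (0 : StrongDual ℝ E) R).ultrafilter_le_nhds
    (U.map fun i => StrongDual.toWeakDual (ψ i)) (by
      rw [le_principal_iff, Ultrafilter.coe_map, Filter.mem_map]
      filter_upwards [h] with i hi
      simpa using hi)
  exact ⟨WeakDual.toStrongDual ψ₀, fun x => ((WeakDual.eval_continuous x).tendsto ψ₀).comp h2⟩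

lemma exists_wlim (hE : Refl E) {ι : Type*} (U : Ultrafilter ι) (f : ι → E) (R : ℝ)
    (h : ∀ᶠ i in U, ‖f i‖ ≤ R) : ∃ z, WLim (U : Filter ι) f z := by
  obtain ⟨ξ, hξ⟩ := exists_wslim U (fun i => NormedSpace.inclusionInDoubleDual ℝ E (f i)) R (by
    filter_upwards [h] with i hi
    exact (NormedSpace.double_dual_bound ℝ E (f i)).trans hi)
  obtain ⟨z, hz⟩ := hE ξ
  exact ⟨z, fun ψ => by simpa [hz] using hξ ψ⟩

lemma WLim.mem {ι : Type*} {F : Filter ι} [F.NeBot] {f : ι → E} {z : E} (h : WLim F f z)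
    {C : Set E} (h1 : Convex ℝ C) (h2 : IsClosed C) (h3 : ∀ᶠ i in F, f i ∈ C) : z ∈ C := by
  by_contra hz
  obtain ⟨g, u, hu1, hu2⟩ := geometric_hahn_banach_closed_point h1 h2 hz
  exact absurd (le_of_tendsto (h g) (h3.mono fun i hi => (hu1 _ hi).le)) (not_le.2 hu2)

lemma WLim.norm_sub_le {ι : Type*} {F : Filter ι} [F.NeBot] {f : ι → E} {z : E} (h : WLim F f z)
    (y : E) {r : ℝ} (h3 : ∀ᶠ i in F, ‖f i - y‖ ≤ r) : ‖z - y‖ ≤ r := by
  have := h.mem (convex_closedBall y r) isClosed_closedBall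
    (h3.mono fun i hi => by rwa [mem_closedBall, dist_eq_norm])
  rwa [mem_closedBall, dist_eq_norm] at this

lemma WLim.sub {ι : Type*} {F : Filter ι} {f g : ι → E} {z w : E} (h : WLim F f z)
    (h' : WLim F g w) : WLim F (fun i => f i - g i) (z - w) := fun ψ => by
  simpa using (h ψ).sub (h' ψ)

lemma WLim.bind {ι N : Type*} {U : Filter ι} {T : ι → Filter N} {f : N → E} {y : ι → E} {y₀ : E}
    (h1 : ∀ᶠ i in U, WLim (T i) f (y i)) (h2 : WLim U y y₀) : WLim (U.bind T) f y₀ := fun ψ =>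
  tendsto_bind (h1.mono fun _ hi => hi ψ) (h2 ψ)

/-- an ultrafilter on a chain of sets that goes down the chain -/
lemma exists_chain_down {α : Type*} (c : Set (Set α)) (hc : IsChain (· ⊆ ·) c) (hne : c.Nonempty) :
    ∃ U : Ultrafilter c, ∀ s ∈ c, ∀ᶠ t : c in U, (t : Set α) ⊆ s := by
  have : Nonempty c := hne.to_subtype
  have : IsDirected c (· ≥ ·) := ⟨fun a b => by
    rcases hc.total a.2 b.2 with h | h
    · exact ⟨a, le_rfl, h⟩
    · exact ⟨b, h, le_rfl⟩⟩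
  exact ⟨Ultrafilter.of atBot, fun s hs =>
    Ultrafilter.of_le atBot (eventually_le_atBot (⟨s, hs⟩ : c))⟩

lemma exists_chain_up {α : Type*} (c : Set (Set α)) (hc : IsChain (· ⊆ ·) c) (hne : c.Nonempty) :
    ∃ U : Ultrafilter c, ∀ s ∈ c, ∀ᶠ t : c in U, s ⊆ (t : Set α) := by
  have : Nonempty c := hne.to_subtype
  have : IsDirected c (· ≤ ·) := ⟨fun a b => by
    rcases hc.total a.2 b.2 with h | h
    · exact ⟨b, h, le_rfl⟩
    · exact ⟨a, le_rfl, h⟩⟩
  exact ⟨Ultrafilter.of atTop, fun s hs =>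
    Ultrafilter.of_le atTop (eventually_ge_atTop (⟨s, hs⟩ : c))⟩

lemma exists_sep {C : Set E} (hC : Convex ℝ C) (v : E) {r : ℝ} (hr : 0 < r)
    (h : ∀ c ∈ C, r ≤ ‖v - c‖) : ∃ ψ : E →L[ℝ] ℝ, ‖ψ‖ ≤ 1 ∧ ∀ c ∈ C, r ≤ ψ (v - c) := by
  rcases C.eq_empty_or_nonempty with rfl | ⟨c₀, hc₀⟩
  · exact ⟨0, by simp, by simp⟩
  obtain ⟨f, u, h1, h2⟩ := geometric_hahn_banach_open (convex_ball v r) isOpen_ball hC
    (disjoint_left.2 fun x hx hx' => by
      have := h x hx'
      rw [mem_ball, dist_eq_norm, norm_sub_rev] at hx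
      linarith)
  have hf : 0 < ‖f‖ := by
    refine norm_pos_iff.2 fun h0 => ?_
    have a1 := h1 v (mem_ball_self hr)
    have a2 := h2 c₀ hc₀
    simp [h0] at a1 a2; linarith
  have h3 : ‖f‖ ≤ (u - f v) / r := by
    refine ContinuousLinearMap.opNorm_le_of_ball one_pos
      (div_nonneg (by linarith [h1 v (mem_ball_self hr)]) hr.le) fun x hx => ?_
    rcases eq_or_ne x 0 with rfl | hx0
    · simp
    have hx1 : 0 < ‖x‖ := norm_pos_iff.2 hx0
    have key : ∀ y : E, ‖y‖ = ‖x‖ → f y ≤ (u - f v) / r * ‖x‖ := by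
      intro y hy
      have hcl : ∀ a ∈ closure (ball v r), f a ≤ u := fun a ha =>
        closure_minimal (fun a ha => (h1 a ha).le) (isClosed_le f.continuous continuous_const) ha
      have := hcl (v + (r / ‖x‖) • y) (by
        rw [closure_ball v hr.ne', mem_closedBall, dist_eq_norm, add_sub_cancel_left, norm_smul,
          hy, Real.norm_of_nonneg (by positivity), div_mul_cancel₀ _ hx1.ne'])
      rw [map_add, map_smul, smul_eq_mul] at this
      rw [div_mul_eq_mul_div, le_div_iff₀ hr]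
      have e : r / ‖x‖ * f y * ‖x‖ = f y * r := by field_simp
      nlinarith
    rw [Real.norm_eq_abs, abs_le]
    refine ⟨?_, key x rfl⟩
    have := key (-x) (norm_neg x)
    rw [map_neg] at this; linarith
  refine ⟨-(‖f‖⁻¹ • f), by rw [norm_neg, norm_smul, norm_inv, norm_norm, inv_mul_cancel₀ hf.ne'],
    fun c hc => ?_⟩
  have := h2 c hc
  rw [le_div_iff₀ hr] at h3
  simp only [neg_apply, smul_apply, map_sub, smul_eq_mul]
  rw [← neg_mul, ← neg_mul, ← mul_sub, neg_mul, ← mul_neg, inv_mul_eq_div, le_div_iff₀ hf]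
  linarith

lemma exists_ann {S : Submodule ℝ E} (hS : IsClosed (S : Set E)) {x : E} (hx : x ∉ S) :
    ∃ f : E →L[ℝ] ℝ, (∀ a ∈ S, f a = 0) ∧ f x ≠ 0 := by
  obtain ⟨f, u, h1, h2⟩ := geometric_hahn_banach_closed_point S.convex hS hx
  have h0 : 0 < u := by simpa using h1 0 S.zero_mem
  refine ⟨f, fun a ha => ?_, by linarith⟩
  by_contra hne
  have := h1 ((u / f a) • a) (S.smul_mem _ ha)
  rw [map_smul, smul_eq_mul, div_mul_cancel₀ _ hne] at this
  exact lt_irrefl _ this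

lemma Refl.submodule (hE : Refl E) (S : Submodule ℝ E) (hS : IsClosed (S : Set E)) : Refl S := by
  intro ξ
  obtain ⟨x, hx⟩ := hE (ξ.comp ((ContinuousLinearMap.compL ℝ S E ℝ).flip S.subtypeL))
  simp only [ContinuousLinearMap.comp_apply, ContinuousLinearMap.flip_apply,
    ContinuousLinearMap.compL_apply] at hx
  have hxS : x ∈ S := by
    by_contra hn
    obtain ⟨f, h1, h2⟩ := exists_ann hS hn
    have : f.comp S.subtypeL = 0 := by ext y; simpa using h1 y y.2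
    exact h2 (by rw [← hx f, this, map_zero])
  refine ⟨⟨x, hxS⟩, fun φ => ?_⟩
  obtain ⟨g, hg, -⟩ := exists_extension_norm_eq S φ
  have : g.comp S.subtypeL = φ := by ext y; simpa using hg y
  rw [← hg, ← this, hx]

lemma Refl.separable_dual (hE : Refl E) [TopologicalSpace.SeparableSpace E] :
    TopologicalSpace.SeparableSpace (E →L[ℝ] ℝ) := by
  obtain ⟨q, hq⟩ := TopologicalSpace.exists_dense_seq E
  choose φ hφ1 hφ2 using fun n => exists_dual_vector'' ℝ (q n)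
  have hsep : TopologicalSpace.IsSeparable
      ((Submodule.span ℝ (range φ)).topologicalClosure : Set (E →L[ℝ] ℝ)) :=
    ((countable_range φ).isSeparable.span (R := ℝ)).closure
  have htop : ((Submodule.span ℝ (range φ)).topologicalClosure : Set (E →L[ℝ] ℝ)) = univ := by
    refine eq_univ_of_forall fun ψ => ?_
    by_contra hn
    obtain ⟨ξ, h1, h2⟩ := exists_ann (Submodule.isClosed_topologicalClosure _) hn
    obtain ⟨x, hx⟩ := hE ξ
    have h3 : ∀ n, φ n x = 0 := fun n => by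
      rw [← hx]
      exact h1 _ (Submodule.le_topologicalClosure _ (Submodule.subset_span ⟨n, rfl⟩))
    have h4 : x = 0 := by
      refine norm_le_zero_iff.1 (le_of_forall_pos_le_add fun ε hε => ?_)
      obtain ⟨n, hn⟩ := hq.exists_dist_lt x (half_pos hε)
      rw [dist_eq_norm] at hn
      have a1 : ‖q n‖ = φ n (q n - x) := by rw [map_sub, h3, sub_zero]; exact (hφ2 n).symm
      have a2 : φ n (q n - x) ≤ ‖q n - x‖ := by
        have := (φ n).le_of_opNorm_le (hφ1 n) (q n - x)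
        rw [one_mul] at this
        exact (le_abs_self _).trans this
      have a3 := norm_le_norm_add_norm_sub' x (q n)
      rw [norm_sub_rev] at a2
      linarith
    exact h2 (by rw [hx, h4, map_zero])
  rw [htop] at hsep
  exact TopologicalSpace.isSeparable_univ_iff.1 hsep

/-- fragmentability of the dual ball -/
lemma frag (hE : Refl E) [TopologicalSpace.SeparableSpace E] {A : Set (WeakDual ℝ E)}
    (hA : IsCompact A) (hne : A.Nonempty) {ε : ℝ} (hε : 0 < ε) :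
    ∃ U : Set (WeakDual ℝ E), IsOpen U ∧ (U ∩ A).Nonempty ∧
      ∀ ψ ∈ U ∩ A, ∀ ψ' ∈ U ∩ A, ∀ x, ψ x - ψ' x ≤ ε * ‖x‖ := by
  have := hE.separable_dual
  obtain ⟨q, hq⟩ := TopologicalSpace.exists_dense_seq (E →L[ℝ] ℝ)
  have : CompactSpace A := isCompact_iff_compactSpace.1 hA
  have : Nonempty A := hne.to_subtype
  obtain ⟨j, a, ha⟩ := nonempty_interior_of_iUnion_of_closed (X := A)
    (f := fun j => Subtype.val ⁻¹' (WeakDual.toStrongDual ⁻¹' closedBall (q j) (ε / 2)))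
    (fun j => (WeakDual.isClosed_closedBall _ _).preimage continuous_subtype_val)
    (eq_univ_of_forall fun a => by
      obtain ⟨j, hj⟩ := hq.exists_dist_lt (WeakDual.toStrongDual a.1) (half_pos hε)
      exact mem_iUnion.2 ⟨j, hj.le⟩)
  obtain ⟨V, hV1, hV2, hV3⟩ := mem_interior.1 ha
  obtain ⟨U, hU, rfl⟩ := isOpen_induced_iff.1 hV2
  refine ⟨U, hU, ⟨a, hV3, a.2⟩, fun ψ hψ ψ' hψ' x => ?_⟩
  have a1 : dist (WeakDual.toStrongDual ψ) (q j) ≤ ε / 2 := hV1 (a := ⟨ψ, hψ.2⟩) hψ.1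
  have a2 : dist (WeakDual.toStrongDual ψ') (q j) ≤ ε / 2 := hV1 (a := ⟨ψ', hψ'.2⟩) hψ'.1
  have a3 : ‖WeakDual.toStrongDual ψ - WeakDual.toStrongDual ψ'‖ ≤ ε := by
    rw [← dist_eq_norm]; linarith [dist_triangle_right (WeakDual.toStrongDual ψ)
      (WeakDual.toStrongDual ψ') (q j)]
  exact (le_abs_self _).trans
    ((WeakDual.toStrongDual ψ - WeakDual.toStrongDual ψ').le_of_opNorm_le a3 x)

lemma exists_max (hE : Refl E) {C : Set E} (h1 : Convex ℝ C) (h2 : IsClosed C) (hne : C.Nonempty)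
    {R : ℝ} (hR : ∀ c ∈ C, ‖c‖ ≤ R) (g : E →L[ℝ] ℝ) : ∃ c ∈ C, ∀ c' ∈ C, g c' ≤ g c := by
  have hb : BddAbove (g '' C) := ⟨‖g‖ * R, by
    rintro _ ⟨c, hc, rfl⟩
    exact (le_abs_self _).trans ((g.le_opNorm c).trans (by gcongr; exact hR c hc))⟩
  obtain ⟨u, -, hu1, hu2⟩ := exists_seq_tendsto_sSup (hne.image g) hb
  choose c hc1 hc2 using hu2
  obtain ⟨z, hz⟩ := exists_wlim hE (hyperfilter ℕ) c R (Eventually.of_forall fun n => hR _ (hc1 n))
  refine ⟨z, hz.mem h1 h2 (Eventually.of_forall hc1), fun c' hc' => ?_⟩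
  have h3 : Tendsto (fun n => g (c n)) (hyperfilter ℕ) (𝓝 (sSup (g '' C))) := by
    simp only [hc2]
    exact hu1.mono_left (Nat.cofinite_eq_atTop ▸ hyperfilter_le_cofinite)
  rw [tendsto_nhds_unique (hz g) h3]
  exact le_csSup hb ⟨c', hc', rfl⟩

/-- dentability -/
lemma dent (hE : Refl E) [TopologicalSpace.SeparableSpace E] {C : Set E} (h1 : Convex ℝ C)
    (h2 : IsClosed C) (hne : C.Nonempty) {R : ℝ} (hR : ∀ c ∈ C, ‖c‖ ≤ R) {ε : ℝ} (hε : 0 < ε) :
    ∃ (g : E →L[ℝ] ℝ) (c₀ : E) (δ : ℝ), c₀ ∈ C ∧ 0 < δ ∧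
      ∀ c ∈ C, g c₀ - δ < g c → ‖c - c₀‖ ≤ ε := by
  have : Nonempty E := ⟨0⟩
  obtain ⟨q, hq⟩ := TopologicalSpace.exists_dense_seq E
  obtain ⟨j, g, hg⟩ := nonempty_interior_of_iUnion_of_closed (X := E →L[ℝ] ℝ)
    (f := fun j => {g | ∃ c ∈ C, ‖c - q j‖ ≤ ε / 4 ∧ ∀ c' ∈ C, g c' ≤ g c})
    (fun j => by
      refine isSeqClosed_iff_isClosed.1 fun g g₀ hg hg₀ => ?_
      choose c hc1 hc2 hc3 using hg
      obtain ⟨z, hz⟩ := exists_wlim hE (hyperfilter ℕ) c R
        (Eventually.of_forall fun n => hR _ (hc1 n))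
      refine ⟨z, hz.mem h1 h2 (Eventually.of_forall hc1),
        hz.norm_sub_le _ (Eventually.of_forall hc2), fun c' hc' => ?_⟩
      have h3 : Tendsto (fun n => ‖g n - g₀‖ * (2 * R)) (hyperfilter ℕ) (𝓝 (0 * (2 * R))) :=
        ((tendsto_iff_norm_sub_tendsto_zero.1 hg₀).mul_const _).mono_left
          (Nat.cofinite_eq_atTop ▸ hyperfilter_le_cofinite)
      have h4 := (hz g₀).add h3
      rw [zero_mul, add_zero] at h4
      refine ge_of_tendsto' h4 fun n => ?_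
      have a1 := hc3 n c' hc'
      have a2 : (g n - g₀) (c n - c') ≤ ‖g n - g₀‖ * (2 * R) :=
        (le_abs_self _).trans (((g n - g₀).le_opNorm _).trans (by
          gcongr
          linarith [norm_sub_le (c n) c', hR _ (hc1 n), hR _ hc']))
      simp only [sub_apply, map_sub] at a2
      linarith)
    (eq_univ_of_forall fun g => by
      obtain ⟨c, hc1, hc2⟩ := exists_max hE h1 h2 hne hR g
      obtain ⟨j, hj⟩ := hq.exists_dist_lt c (by positivity : 0 < ε / 4)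
      exact mem_iUnion.2 ⟨j, c, hc1, by rw [← dist_eq_norm]; exact hj.le, hc2⟩)
  obtain ⟨r, hr, hball⟩ := nhds_basis_closedBall.mem_iff.1 (mem_interior_iff_mem_nhds.1 hg)
  obtain ⟨c₀, hc₀, hc₀q, hmax⟩ := hball (mem_closedBall_self hr.le)
  refine ⟨g, c₀, r * (ε / 4), hc₀, by positivity, fun c hc hgc => ?_⟩
  obtain ⟨φ, hφ1, hφ2⟩ := exists_dual_vector'' ℝ (c - q j)
  obtain ⟨c', hc', hc'q, hmax'⟩ := hball (a := g + r • φ) (by
    rw [mem_closedBall, dist_eq_norm, add_sub_cancel_left, norm_smul, Real.norm_of_nonneg hr.le]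
    exact mul_le_of_le_one_right hr.le hφ1)
  have a1 := hmax' c hc
  have a2 := hmax c' hc'
  have a3 : φ (c' - q j) ≤ ε / 4 := by
    have := φ.le_of_opNorm_le hφ1 (c' - q j)
    rw [one_mul] at this
    exact (le_abs_self _).trans (this.trans hc'q)
  simp only [add_apply, smul_apply, smul_eq_mul] at a1
  have a4 : φ c - φ (q j) = ‖c - q j‖ := by rw [← map_sub]; exact hφ2
  rw [map_sub] at a3
  have a5 : r * ‖c - q j‖ ≤ r * (ε / 2) := by nlinarith
  have a6 := le_of_mul_le_mul_left a5 hr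
  have a7 := norm_sub_le_norm_sub_add_norm_sub c (q j) c₀
  rw [norm_sub_rev (q j)] at a7
  linarith

end Crest.Agent.R108
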